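import Vale.Agent.P280A30.Rows
import Vale.Agent.P281Z.Pb.Ps
import Vale.Agent.P277Z.Slc.Basic
import Vale.Agent.P299G50.Hol
import Vale.Agent.P299G11.Frm
import Vale.Agent.P299G40.GPsi

/-!
# P280F26: row FANO
-/

open scoped Manifold ContDiff Topology ComplexOrder
open MvPolynomial Matrix Filter
open Vale.Agent.P272.K Vale.Agent.P285.H281.FD Vale.Agent.P300.Final Vale.Agent.P299G40
open Vale.Agent.P299.Final (IsAnticanonicalSection)
open Vale.Agent.P280Z (Fano)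
open Vale.Agent.P281Z (Pos)
open Vale.Agent.P009.AV (aff)

noncomputable section

namespace Vale.Agent.P280A.F26

variable {n N M : ℕ} {X : Type} [TopologicalSpace X] [ChartedSpace (Cm n) X]

theorem pos_root {L : Bd X} {k : ℕ} (hk : 0 < k) (h : Pos n (L.pow k)) : Pos n L := by
  obtain ⟨ψ, h1, h2⟩ := h
  have hk' : (0 : ℝ) < k := Nat.cast_pos.2 hk
  refine ⟨fun i x => (k : ℝ)⁻¹ * ψ i x, ⟨fun i e x he hx => contDiffAt_const.mul
    (h1.smooth i e x he hx), fun i j x hi hj => ?_⟩, fun i e x he hx => ?_⟩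
  · have h3 : ψ i x = ψ j x + Real.log (‖L.g i j x ^ k‖ ^ 2) := h1.change i j x hi hj
    show (k : ℝ)⁻¹ * ψ i x = (k : ℝ)⁻¹ * ψ j x + Real.log (‖L.g i j x‖ ^ 2)
    rw [h3, norm_pow, ← pow_mul, mul_comm k 2, pow_mul, Real.log_pow _ k, mul_add, ← mul_assoc,
      inv_mul_cancel₀ hk'.ne', one_mul]
  · show (cHess (fun z => (k : ℝ)⁻¹ * ψ i (e.symm z)) (e x)).PosDef
    rw [C2.cHess_const_mul _ ((h1.smooth i e x he hx).of_le
      (WithTop.coe_le_coe.2 (le_top : (2 : ℕ∞) ≤ ⊤)))]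
    exact (h2 i e x he hx).smul (Complex.zero_lt_real.2 (inv_pos.2 hk'))

theorem lb_inv_pow {L : Bd X} (hL : IsLB n L) (k : ℕ) : IsLB n ((P277.Bd.inv L).pow k) where
  isOpen := hL.isOpen
  cover := hL.cover
  holo i j e x he hi hj := ((hL.holo i j e x he hi hj).inv
    (by rw [e.left_inv he.2]; exact hL.ne_zero i j x hi hj)).pow k
  ne_zero i j x hi hj := pow_ne_zero _ (inv_ne_zero (hL.ne_zero i j x hi hj))
  cocycle i j l x hi hj hl := by
    show (L.g i j x)⁻¹ ^ k * (L.g j l x)⁻¹ ^ k = (L.g i l x)⁻¹ ^ k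
    rw [← mul_pow, ← mul_inv, hL.cocycle i j l x hi hj hl]

/-- polynomials in functions with derivative zero along `ξ` -/
theorem eval_dir {u : Cm n → Fin (M + 1) → ℂ} {z ξ : Cm n}
    (hu : ∀ j, DifferentiableAt ℂ (fun y => u y j) z) (h0 : ∀ j, fderiv ℂ (fun y => u y j) z ξ = 0)
    (P : MvPolynomial (Fin (M + 1)) ℂ) :
    DifferentiableAt ℂ (fun y => eval (u y) P) z ∧ fderiv ℂ (fun y => eval (u y) P) z ξ = 0 := by
  induction P using MvPolynomial.induction_on with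
  | C a => simp
  | add p q hp hq =>
    simp only [map_add]
    refine ⟨hp.1.add hq.1, ?_⟩
    rw [fderiv_fun_add hp.1 hq.1, _root_.add_apply, hp.2, hq.2, add_zero]
  | mul_X p j hp =>
    simp only [map_mul, eval_X]
    refine ⟨hp.1.mul (hu j), ?_⟩
    rw [fderiv_fun_mul hp.1 (hu j)]
    simp [hp.2, h0 j]

theorem div_dir {a b : Cm n → ℂ} {z ξ : Cm n} (ha : DifferentiableAt ℂ a z)
    (hb : DifferentiableAt ℂ b z) (h : b z ≠ 0) (a0 : fderiv ℂ a z ξ = 0)
    (b0 : fderiv ℂ b z ξ = 0) : fderiv ℂ (fun y => a y / b y) z ξ = 0 := by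
  have h1 : HasFDerivAt (fun y => (b y)⁻¹) _ z := (hasFDerivAt_inv h).comp z hb.hasFDerivAt
  have h2 := (ha.hasFDerivAt.mul h1).fderiv
  simp only [div_eq_mul_inv]
  rw [show (fun y => a y * (b y)⁻¹) = a * fun y => (b y)⁻¹ from rfl, h2]
  simp [a0, b0]

theorem mk_smul {v : Fin (M + 1) → ℂ} (h : v ≠ 0) {c : ℂ} (hc : c ≠ 0) :
    Projectivization.mk ℂ (c • v) (smul_ne_zero hc h) = Projectivization.mk ℂ v h :=
  (Projectivization.mk_eq_mk_iff' ℂ _ _ _ _).2 ⟨c, rfl⟩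

end Vale.Agent.P280A.F26

namespace Vale.Agent.P280A

open F26

theorem fano : FANO := by
  intro n N Z X _ _ _ _ Φ ⟨hZ, m, M, g, ψ, W, hm, hg, hψ, _, _, hW, G, hG, _, hI⟩ hA
  have hΦ := hA.2.1
  have F := P299G11.frm n N Z X Φ hZ hA
  choose s hs rep using fun k => P299G50.hol P299G11.frm n N Z X Φ hZ hA m (g k) (hg k)
  have hK : IsLB n (Bd.can n X) := P277Z.Slc.isLB_can
  have hZx : ∀ x, Φ x ∈ Z := fun x => hA.2.2 ▸ Set.mem_range_self x
  -- `ψ ∘ Φ` is given by the sections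
  have key : ∀ (i : Chart n X) x, At i x → ∃ h : (fun k => s k i (i x)) ≠ 0,
      ψ (Φ x) = Projectivization.mk ℂ (fun k => s k i (i x)) h := by
    intro i x hi
    obtain ⟨I, J, hd⟩ := (F i x hi).2.2
    obtain ⟨h, e1⟩ := hψ I J _ hd
    have hj : jac Φ i I J x ^ m ≠ 0 := pow_ne_zero _ (((F i x hi).2.1 I J).1 hd).2
    have e2 : (fun k => g k I J (Φ x)) = jac Φ i I J x ^ m • fun k => s k i (i x) :=
      funext fun k => by rw [rep k i x I J hi hd, mul_comm]; rfl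
    have h' : (fun k => s k i (i x)) ≠ 0 := fun h0 => h (by rw [e2, h0, smul_zero])
    refine ⟨h', e1.trans ?_⟩
    rw [← mk_smul h' hj]
    congr 1
  have hol : ∀ k (i e : Chart n X) x, At e x → At i x →
      ContDiffAt ℂ ω (fun z => s k i (i (e.symm z))) (e x) := fun k i e x he hi =>
    (P277Z.hol_comp hi (f := s k i) ((hs k).holomorphic i x hi) e he).contDiffAt
  refine ⟨inferInstance, pos_root hm (P281Z.Pb.pos_of_sec (lb_inv_pow hK m)
    (s := fun k (i : Chart n X) x => s k i (i x))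
    (fun k => ⟨hol k, fun (i j : Chart n X) x hi hj => ?_⟩)
    (fun i x hi => Function.ne_iff.1 (key i x hi).1) fun (i : Chart n X) x hi e he ξ hξ => ?_)⟩
  · show s k i (i x) = (jacM i j x).det⁻¹ ^ m * s k j (j x)
    rw [← (hs k).change i j x hi hj, mul_comm (s k i (i x)), ← mul_assoc, ← mul_pow,
      inv_mul_cancel₀ (a := (jacM i j x).det) (hK.ne_zero i j x hi hj), one_pow, one_mul]
  obtain ⟨k, hk⟩ := Function.ne_iff.1 (key i x hi).1
  by_contra hc
  have hk0 : s k i (i x) ≠ 0 := hk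
  have hk1 : s k i (i (e.symm (e x))) ≠ 0 := by rw [e.left_inv he.2]; exact hk0
  let u : Cm n → Fin (M + 1) → ℂ := fun z j => s j i (i (e.symm z)) / s k i (i (e.symm z))
  have hu : ∀ j, DifferentiableAt ℂ (fun y => u y j) (e x) := fun j =>
    ((hol j i e x he hi).div (hol k i e x he hi) hk1).differentiableAt (by simp)
  have h0 : ∀ j, fderiv ℂ (fun y => u y j) (e x) ξ = 0 := fun j => by
    by_contra h
    exact hc ⟨k, j, hk0, h⟩
  obtain ⟨P, d, hP, hv, hloc⟩ := hG _ (hW (hZx x))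
  -- `Φ` in terms of `u`
  have lift : ∀ y, At i y → s k i (i y) ≠ 0 → ∃ c : ℂ, c ≠ 0 ∧
      (fun a => eval (fun j => s j i (i y) / s k i (i y)) (P a)) = c • val P (ψ (Φ y)) := by
    intro y hy h1
    obtain ⟨h, e1⟩ := key i y hy
    have h2 : (ψ (Φ y)).rep k ≠ 0 := by rw [e1, (aff_mk _ _).1]; exact h1
    refine ⟨((ψ (Φ y)).rep k)⁻¹ ^ d, pow_ne_zero _ (inv_ne_zero h2), funext fun a => ?_⟩
    have h3 : aff k (ψ (Φ y)) = fun j => s j i (i y) / s k i (i y) := by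
      rw [e1, (aff_mk _ _).2]
    rw [← h3, P299G50.eval_aff (hP a)]
    rfl
  have lift2 : ∀ y, At i y → s k i (i y) ≠ 0 →
      ∀ h : (fun a => eval (fun j => s j i (i y) / s k i (i y)) (P a)) ≠ 0,
      Φ y = Projectivization.mk ℂ _ h := by
    intro y hy h1 h
    obtain ⟨c, c0, e1⟩ := lift y hy h1
    have h2 : val P (ψ (Φ y)) ≠ 0 := fun h0 => h (by rw [e1, h0, smul_zero])
    rw [← hI.1 (hZx y), hloc _ (hW (hZx y)) h2, ← mk_smul h2 c0]
    congr 1
    exact e1.symm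
  obtain ⟨I, J, hd⟩ := (F e x he).2.2
  obtain ⟨hI0, hj⟩ := ((F e x he).2.1 I J).1 hd
  have hx0 : (fun a => eval (fun j => s j i (i x) / s k i (i x)) (P a)) ≠ 0 := by
    obtain ⟨c, c0, e1⟩ := lift x hi hk0
    rw [e1]
    exact smul_ne_zero c0 hv
  have hI1 : eval (u (e x)) (P I) ≠ 0 := by
    rw [lift2 x hi hk0 hx0, (aff_mk _ _).1] at hI0
    simp only [u, e.left_inv he.2]
    exact hI0
  have ev : ∀ a, (fun z => aff I (Φ (e.symm z)) a) =ᶠ[𝓝 (e x)]
      fun z => eval (u z) (P a) / eval (u z) (P I) := by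
    intro a
    filter_upwards [he.nhds_at hi, (hol k i e x he hi).continuousAt.eventually_ne hk1,
      (eval_dir hu h0 (P I)).1.continuousAt.eventually_ne hI1] with z h1 h2 h3
    rw [lift2 _ h1.2.2 h2 (Function.ne_iff.2 ⟨I, h3⟩), (aff_mk _ _).2]
  have hz : ∀ a, fderiv ℂ (fun z => aff I (Φ (e.symm z)) a) (e x) ξ = 0 := fun a => by
    rw [(ev a).fderiv_eq]
    exact div_dir (eval_dir hu h0 (P a)).1 (eval_dir hu h0 (P I)).1 hI1 (eval_dir hu h0 (P a)).2
      (eval_dir hu h0 (P I)).2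
  refine hj (Matrix.exists_mulVec_eq_zero_iff.1 ⟨ξ, hξ, funext fun a => ?_⟩)
  rw [Pi.zero_apply, ← hz (J a)]
  conv_rhs => rw [pi_eq_sum_univ' ξ, map_sum]
  simp only [Matrix.mulVec, dotProduct, Matrix.of_apply, map_smul, smul_eq_mul]
  exact Finset.sum_congr rfl fun l _ => mul_comm _ _

end Vale.Agent.P280A

end
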